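import Mathlib
import Vale.Agent.Lib.P110.Parity

namespace Vale.Agent.Results.P110.FlatnessRate

/-- If a real Littlewood polynomial `P` of length `N` satisfies
`(1 - c) √N ≤ |P(z)| ≤ (1 + c) √N` on the whole unit circle, then `N - 1 ≤ 4 c^2 N^2`,
that is `c ≥ √(N-1) / (2N)`. -/
theorem result (N : ℕ) (ε : ℕ → ℝ) (hε : ∀ k < N, ε k = 1 ∨ ε k = -1) (c : ℝ) (hc : 0 ≤ c)
    (hflat : ∀ z : ℂ, ‖z‖ = 1 →
      (1 - c) * Real.sqrt N ≤ ‖∑ k ∈ Finset.range N, (ε k : ℂ) * z ^ k‖ ∧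
      ‖∑ k ∈ Finset.range N, (ε k : ℂ) * z ^ k‖ ≤ (1 + c) * Real.sqrt N) :
    (N : ℝ) - 1 ≤ 4 * c ^ 2 * (N : ℝ) ^ 2 :=
  Vale.Agent.Lib.P110.flat_rate N ε hε c hc hflat

end Vale.Agent.Results.P110.FlatnessRate
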