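import Mathlib
import Vale.Agent.Lib.P110.Kronecker

namespace Vale.Agent.Results.P110.KroneckerFactor

/-- Kronecker products. Let `a` (length `m ≥ 2`) and `b` (length `k`) be sequences of signs and
let `P(z) = ∑_{n < mk} ε_n z^n` be the real Littlewood polynomial of length `N = mk` whose
coefficient sequence is their Kronecker product in either order: `ε_{i + m j} = a_i b_j`
(that is `P(z) = A(z) B(z^m)`) or `ε_{j + k i} = a_i b_j` (that is `P(z) = B(z) A(z^k)`).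
Then some `z` on the unit circle has `|P(z)|^2 (m^3 + 2) ≤ N m^3`. -/
theorem result (m k : ℕ) (hm : 2 ≤ m) (a b ε : ℕ → ℝ)
    (ha : ∀ i < m, a i = 1 ∨ a i = -1) (hb : ∀ j < k, b j = 1 ∨ b j = -1)
    (hε : (∀ i < m, ∀ j < k, ε (i + m * j) = a i * b j) ∨
      (∀ i < m, ∀ j < k, ε (j + k * i) = a i * b j)) :
    ∃ z : ℂ, ‖z‖ = 1 ∧
      ‖∑ n ∈ Finset.range (m * k), (ε n : ℂ) * z ^ n‖ ^ 2 * ((m : ℝ) ^ 3 + 2)
        ≤ ((m * k : ℕ) : ℝ) * (m : ℝ) ^ 3 :=
  Vale.Agent.Lib.P110.kron_main m k hm a b ε ha hb hε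

end Vale.Agent.Results.P110.KroneckerFactor
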