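import Mathlib
import Vale.Agent.Lib.P110.Parity

namespace Vale.Agent.Results.P110.ParityGap

/-- For every real Littlewood polynomial `P(z) = ∑_{k<N} ε_k z^k` (`ε_k = ±1`) there are points
`z, w` on the unit circle with `|P(w)|^2 ≤ N ≤ |P(z)|^2` and
`(N - |P(w)|^2) * (|P(z)|^2 - N) ≥ 2 * ⌊N/2⌋`. -/
theorem result (N : ℕ) (ε : ℕ → ℝ) (hε : ∀ k < N, ε k = 1 ∨ ε k = -1) :
    ∃ z w : ℂ, ‖z‖ = 1 ∧ ‖w‖ = 1 ∧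
      ‖∑ k ∈ Finset.range N, (ε k : ℂ) * w ^ k‖ ^ 2 ≤ N ∧
      (N : ℝ) ≤ ‖∑ k ∈ Finset.range N, (ε k : ℂ) * z ^ k‖ ^ 2 ∧
      2 * ((N / 2 : ℕ) : ℝ) ≤ (N - ‖∑ k ∈ Finset.range N, (ε k : ℂ) * w ^ k‖ ^ 2) *
        (‖∑ k ∈ Finset.range N, (ε k : ℂ) * z ^ k‖ ^ 2 - N) :=
  Vale.Agent.Lib.P110.main_real N ε hε

end Vale.Agent.Results.P110.ParityGap
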